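import Vale.Agent.P235.ST.H317.Defs2
import Vale.Agent.P235.ST.H119.Clock

/-! P235, (ST) O(1), rows r6, r7: the bumps (`bumps`). helper558. -/

set_option linter.unusedSectionVars false
set_option linter.unusedVariables false

namespace Vale.Agent.P235.STO.H558

open SimpleGraph Finset

variable {V : Type} [Fintype V] (W : LWorld V)

omit [Fintype V] in
theorem th_cast (k : ℕ) : (th k : ℝ) = 16 * 2 ^ k := by
  unfold th
  push_cast
  ring

omit [Fintype V] in
theorem pow_pos' (k : ℕ) : (0 : ℝ) < 2 ^ k := by positivity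

/-- representative of the component of `x` in the band graph -/
noncomputable def rep (k m : ℕ) (x : V) : V := Quot.out ((W.Bg k m).connectedComponentMk x)

omit [Fintype V] in
theorem rep_of_reach {k m : ℕ} {x y : V} (h : (W.Bg k m).Reachable x y) :
    rep W k m x = rep W k m y := by
  unfold rep
  rw [ConnectedComponent.sound h]

omit [Fintype V] in
theorem reach_of_rep {k m : ℕ} {x y : V} (h : rep W k m x = rep W k m y) :
    (W.Bg k m).Reachable x y := by
  have h1 : (W.Bg k m).connectedComponentMk (rep W k m x) = (W.Bg k m).connectedComponentMk x :=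
    Quot.out_eq _
  have h2 : (W.Bg k m).connectedComponentMk (rep W k m y) = (W.Bg k m).connectedComponentMk y :=
    Quot.out_eq _
  exact ConnectedComponent.exact (by rw [← h1, ← h2, h])

/-- the tent -/
noncomputable def tent (k m n : ℕ) (x : V) : ℝ := 2 * 2 ^ k - |(W.D k m x : ℝ) - n * 2 ^ k|

/-- the bump inside its component -/
noncomputable def core (ρ : V → ℝ) (k m n : ℕ) (x : V) : ℝ :=
  max 0 (min (min (W.pos k m x : ℝ) ((th k : ℝ) - W.pos k m x))
    (min (tent W k m n x) (min (4 * dl * ρ x - th k) (2 * th k - d1 * ρ x))))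

open Classical in
/-- the bump -/
noncomputable def T (ρ : V → ℝ) (k m : ℕ) (c : V) (n : ℕ) (x : V) : ℝ :=
  if rep W k m x = c then core W ρ k m n x else 0

variable {W}

omit [Fintype V] in
theorem core_nonneg (ρ : V → ℝ) (k m n : ℕ) (x : V) : 0 ≤ core W ρ k m n x := le_max_left _ _

omit [Fintype V] in
theorem T_nonneg (ρ : V → ℝ) (k m : ℕ) (c : V) (n : ℕ) (x : V) : 0 ≤ T W ρ k m c n x := by
  unfold T
  split_ifs
  · exact core_nonneg _ _ _ _ _
  · exact le_rfl

omit [Fintype V] in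
theorem core_le_hat (ρ : V → ℝ) (k m n : ℕ) (x : V) {c : ℝ} (hc : 0 ≤ c)
    (h : min (W.pos k m x : ℝ) ((th k : ℝ) - W.pos k m x) ≤ c) : core W ρ k m n x ≤ c :=
  max_le hc (le_trans (min_le_left _ _) h)

omit [Fintype V] in
theorem core_le_tent (ρ : V → ℝ) (k m n : ℕ) (x : V) :
    core W ρ k m n x ≤ max 0 (tent W k m n x) :=
  max_le_max le_rfl (le_trans (min_le_right _ _) (min_le_left _ _))

omit [Fintype V] in
/-- heights of adjacent vertices of different bands -/
theorem edge_pos {k m : ℕ} {x y : V} (hadj : W.G.Adj x y) (hne : W.bi k m x ≠ W.bi k m y) :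
    min (W.pos k m x : ℝ) ((th k : ℝ) - W.pos k m x) ≤ 1 := by
  have hp := H119.th_pos k
  set a := W.u x + m * 2 ^ k with ha
  have h1 : W.pos k m x + th k * W.bi k m x = a := Int.emod_add_mul_ediv _ _
  have h2 : 0 ≤ W.pos k m x := Int.emod_nonneg _ hp.ne'
  have h3 : W.pos k m x < th k := Int.emod_lt_of_pos _ hp
  have hu := W.unit x y hadj
  have hcase : W.u y = W.u x + 1 ∨ W.u y = W.u x - 1 := by
    rcases abs_eq (by norm_num : (0 : ℤ) ≤ 1) |>.1 hu with h | h
    · right; omega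
    · left; omega
  rcases hcase with h | h
  · have h4 : th k - W.pos k m x ≤ 1 := by
      by_contra hcon
      apply hne
      have h5 : W.u y + m * 2 ^ k = (W.pos k m x + 1) + th k * W.bi k m x := by
        rw [h]
        linarith
      have h6 : W.bi k m y = (W.pos k m x + 1) / th k + W.bi k m x := by
        conv_lhs => unfold LWorld.bi
        rw [h5, Int.add_mul_ediv_left _ _ hp.ne']
      rw [h6, Int.ediv_eq_zero_of_lt (by omega) (by omega), zero_add]
    refine le_trans (min_le_right _ _) ?_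
    exact_mod_cast h4
  · have h4 : W.pos k m x ≤ 1 := by
      by_contra hcon
      apply hne
      have h5 : W.u y + m * 2 ^ k = (W.pos k m x - 1) + th k * W.bi k m x := by
        rw [h]
        linarith
      have h6 : W.bi k m y = (W.pos k m x - 1) / th k + W.bi k m x := by
        conv_lhs => unfold LWorld.bi
        rw [h5, Int.add_mul_ediv_left _ _ hp.ne']
      rw [h6, Int.ediv_eq_zero_of_lt (by omega) (by omega), zero_add]
    refine le_trans (min_le_left _ _) ?_
    exact_mod_cast h4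

/-- one-sided comparison of the bumps at the ends of an edge of a band -/
theorem core_step {ρ : V → ℝ} (hρ : W.Scale ρ) {k m n : ℕ} {x y : V} (hadj : W.G.Adj x y)
    (hb : W.bi k m x = W.bi k m y) : core W ρ k m n x ≤ core W ρ k m n y + 1 := by
  have hp := H119.th_pos k
  have hB : (W.Bg k m).Adj x y := ⟨hadj, hb⟩
  have hd : (W.Bg k m).dist x y ≤ 1 := by
    have := SimpleGraph.dist_le (Walk.cons hB Walk.nil)
    simpa using this
  have hD1 := H119.D_lip W k m hB.reachable
  have hD2 := H119.D_lip W k m hB.reachable.symm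
  rw [SimpleGraph.dist_comm] at hD2
  have hD1' : (W.D k m y : ℝ) ≤ W.D k m x + 1 := by
    have : (W.D k m y : ℤ) ≤ W.D k m x + 1 := by
      have : ((W.Bg k m).dist x y : ℤ) ≤ 1 := by exact_mod_cast hd
      linarith
    exact_mod_cast this
  have hD2' : (W.D k m x : ℝ) ≤ W.D k m y + 1 := by
    have : (W.D k m x : ℤ) ≤ W.D k m y + 1 := by
      have : ((W.Bg k m).dist x y : ℤ) ≤ 1 := by exact_mod_cast hd
      linarith
    exact_mod_cast this
  have hu := W.unit x y hadj
  have hpos : W.pos k m x - W.pos k m y = W.u x - W.u y := by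
    have h1 : W.pos k m x + th k * W.bi k m x = W.u x + m * 2 ^ k := Int.emod_add_mul_ediv _ _
    have h2 : W.pos k m y + th k * W.bi k m y = W.u y + m * 2 ^ k := Int.emod_add_mul_ediv _ _
    rw [hb] at h1
    linarith
  have hpa : |W.pos k m x - W.pos k m y| ≤ 1 := by rw [hpos, hu]
  have hp1 : (W.pos k m x : ℝ) ≤ W.pos k m y + 1 := by
    have := (abs_le.1 hpa).2
    exact_mod_cast (by linarith : W.pos k m x ≤ W.pos k m y + 1)
  have hp2 : (W.pos k m y : ℝ) ≤ W.pos k m x + 1 := by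
    have := (abs_le.1 hpa).1
    exact_mod_cast (by linarith : W.pos k m y ≤ W.pos k m x + 1)
  have hdxy : W.d x y = 1 := by
    unfold LWorld.d
    rw [(SimpleGraph.dist_eq_one_iff_adj).2 hadj]
    norm_num
  have hr := hρ.lip x y
  rw [hdxy] at hr
  have hr1 := (abs_le.1 hr).1
  have hr2 := (abs_le.1 hr).2
  have hk : (1 : ℝ) / kap = 2 ^ 22 := by
    unfold kap
    norm_num
  rw [hk] at hr1 hr2
  have ht : tent W k m n x ≤ tent W k m n y + 1 := by
    unfold tent
    have h1 : |(W.D k m y : ℝ) - n * 2 ^ k| ≤ |(W.D k m x : ℝ) - n * 2 ^ k| + 1 := by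
      have h2 : (W.D k m y : ℝ) - n * 2 ^ k =
          ((W.D k m x : ℝ) - n * 2 ^ k) + ((W.D k m y : ℝ) - W.D k m x) := by ring
      rw [h2]
      refine le_trans (abs_add_le _ _) ?_
      have h3 : |(W.D k m y : ℝ) - W.D k m x| ≤ 1 := by
        rw [abs_le]
        constructor <;> linarith
      linarith
    linarith
  have h3 : 4 * dl * ρ x - th k ≤ 4 * dl * ρ y - th k + 1 := by
    unfold dl
    have : ρ x - ρ y ≤ 2 ^ 22 := hr2
    norm_num at this ⊢
    linarith
  have h4 : 2 * (th k : ℝ) - d1 * ρ x ≤ 2 * th k - d1 * ρ y + 1 := by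
    unfold d1
    have : -(2 : ℝ) ^ 22 ≤ ρ x - ρ y := hr1
    norm_num at this ⊢
    linarith
  unfold core
  refine max_le (by have := le_max_left (0 : ℝ) (min (min (W.pos k m y : ℝ) ((th k : ℝ) - W.pos k m y))
    (min (tent W k m n y) (min (4 * dl * ρ y - th k) (2 * th k - d1 * ρ y)))); linarith) ?_
  refine le_trans ?_ (add_le_add_left (le_max_right _ _) 1)
  rw [← min_add_add_right, ← min_add_add_right, ← min_add_add_right, ← min_add_add_right]
  exact min_le_min (min_le_min hp1 (by linarith)) (min_le_min ht (min_le_min h3 h4))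

theorem T_lip {ρ : V → ℝ} (hρ : W.Scale ρ) {k m n : ℕ} {c x y : V} (hadj : W.G.Adj x y) :
    |T W ρ k m c n x - T W ρ k m c n y| ≤ 1 := by
  by_cases hb : W.bi k m x = W.bi k m y
  · have hB : (W.Bg k m).Adj x y := ⟨hadj, hb⟩
    have hr := rep_of_reach W hB.reachable
    unfold T
    rw [hr]
    split_ifs
    · have h1 := core_step (n := n) hρ hadj hb
      have h2 := core_step (n := n) hρ hadj.symm hb.symm
      rw [abs_le]
      constructor <;> linarith
    · norm_num
  · have h1 : T W ρ k m c n x ≤ 1 := by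
      unfold T
      split_ifs
      · exact core_le_hat _ _ _ _ _ zero_le_one (edge_pos hadj hb)
      · exact zero_le_one
    have h2 : T W ρ k m c n y ≤ 1 := by
      unfold T
      split_ifs
      · exact core_le_hat _ _ _ _ _ zero_le_one (edge_pos hadj.symm (Ne.symm hb))
      · exact zero_le_one
    have h3 := T_nonneg (W := W) ρ k m c n x
    have h4 := T_nonneg (W := W) ρ k m c n y
    rw [abs_le]
    constructor <;> linarith

/-! ### Activity -/

/-- thickness `k` is active at scale `r` -/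
def PK (r : ℝ) (k : ℕ) : Prop := (th k : ℝ) < 4 * dl * r ∧ d1 * r < 2 * th k

/-- the tent number `n` is active at clock value `D` -/
def PN (D k n : ℕ) : Prop := |(D : ℝ) - n * 2 ^ k| < 2 * 2 ^ k

omit [Fintype V] in
theorem act_of_pos {ρ : V → ℝ} {k m n : ℕ} {c x : V} (h : T W ρ k m c n x ≠ 0) :
    PK (ρ x) k ∧ c = rep W k m x ∧ PN (W.D k m x) k n := by
  unfold T at h
  split_ifs at h with hc
  · have h0 : 0 < min (min (W.pos k m x : ℝ) ((th k : ℝ) - W.pos k m x))
        (min (tent W k m n x) (min (4 * dl * ρ x - th k) (2 * th k - d1 * ρ x))) := by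
      by_contra hcon
      exact h (max_eq_left (not_lt.1 hcon))
    rw [lt_min_iff, lt_min_iff, lt_min_iff, lt_min_iff] at h0
    obtain ⟨-, h1, h2, h3⟩ := h0
    refine ⟨⟨by linarith, by linarith⟩, hc.symm, ?_⟩
    unfold tent at h1
    unfold PN
    linarith
  · exact absurd rfl h

open Classical in
theorem card_PN (D k NN : ℕ) :
    ∑ n : Fin NN, (if PN D k n then 1 else 0 : ℕ) ≤ 4 := by
  rw [← Finset.card_filter]
  have h1 : (Finset.univ.filter fun n : Fin NN => PN D k n).card ≤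
      (Finset.Icc (D / 2 ^ k - 1) (D / 2 ^ k + 2)).card := by
    refine Finset.card_le_card_of_injOn (fun n : Fin NN => (n : ℕ)) ?_
      (fun a _ b _ h => Fin.ext h)
    intro n hn
    have hn' : PN D k n := (Finset.mem_filter.1 hn).2
    unfold PN at hn'
    rw [abs_lt] at hn'
    have h2 : D < ((n : ℕ) + 2) * 2 ^ k := by
      have : (D : ℝ) < ((n : ℕ) + 2) * 2 ^ k := by linarith [hn'.2]
      exact_mod_cast this
    have h3 : (n : ℕ) * 2 ^ k < D + 2 * 2 ^ k := by
      have : ((n : ℕ) : ℝ) * 2 ^ k < D + 2 * 2 ^ k := by linarith [hn'.1]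
      exact_mod_cast this
    have h4 : D / 2 ^ k < (n : ℕ) + 2 := (Nat.div_lt_iff_lt_mul (by positivity)).2 h2
    have h5 : D < (D / 2 ^ k + 1) * 2 ^ k := by
      have := Nat.lt_mul_div_succ D (show 0 < 2 ^ k by positivity)
      rw [mul_comm]
      exact this
    have h6 : (n : ℕ) < D / 2 ^ k + 3 := by
      have h7 : (n : ℕ) * 2 ^ k < (D / 2 ^ k + 3) * 2 ^ k := by
        calc (n : ℕ) * 2 ^ k < D + 2 * 2 ^ k := h3
          _ < (D / 2 ^ k + 1) * 2 ^ k + 2 * 2 ^ k := by omega
          _ = (D / 2 ^ k + 3) * 2 ^ k := by ring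
      exact lt_of_mul_lt_mul_right h7 (Nat.zero_le _)
    show (n : ℕ) ∈ _
    rw [Finset.coe_Icc, Set.mem_Icc]
    constructor <;> omega
  refine le_trans h1 ?_
  rw [Nat.card_Icc]
  omega

open Classical in
theorem card_PK (r : ℝ) (M : ℕ) : ∑ k : Fin M, (if PK r k then 1 else 0 : ℕ) ≤ 78 := by
  rw [← Finset.card_filter]
  rcases (Finset.univ.filter fun k : Fin M => PK r k).eq_empty_or_nonempty with he | hne
  · rw [he]
    simp
  · obtain ⟨k0, hk0, hmin⟩ := Finset.exists_min_image _ (fun k : Fin M => (k : ℕ)) hne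
    have hP0 : PK r k0 := (Finset.mem_filter.1 hk0).2
    have h1 : (Finset.univ.filter fun k : Fin M => PK r k).card ≤
        (Finset.Ico (k0 : ℕ) (k0 + 78)).card := by
      refine Finset.card_le_card_of_injOn (fun k : Fin M => (k : ℕ)) ?_
        (fun a _ b _ h => Fin.ext h)
      intro k hk
      have hk1 : PK r k := (Finset.mem_filter.1 hk).2
      have hk2 := hmin k hk
      have h2 := hk1.1
      have h3 := hP0.2
      rw [th_cast] at h2 h3
      unfold dl at h2
      unfold d1 at h3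
      have h4 : (2 : ℝ) ^ ((k : ℕ) + 27) < 2 ^ ((k0 : ℕ) + 105) := by
        rw [pow_add, pow_add]
        norm_num at h2 h3 ⊢
        linarith
      have h5 : (k : ℕ) + 27 < (k0 : ℕ) + 105 := (pow_lt_pow_iff_right₀ (by norm_num)).1 h4
      show (k : ℕ) ∈ _
      rw [Finset.coe_Ico, Set.mem_Ico]
      constructor
      · exact hk2
      · omega
    refine le_trans h1 ?_
    rw [Nat.card_Ico]
    omega

/-- index type -/
abbrev Ix (V : Type) (M NN : ℕ) : Type := Fin M × (Fin 16 × (V × Fin NN))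

open Classical in
/-- the number of active bumps -/
theorem count (ρ : V → ℝ) (M NN : ℕ) (x : V) :
    ∑ i : Ix V M NN, (if PK (ρ x) i.1 ∧ i.2.2.1 = rep W i.1 i.2.1 x ∧
      PN (W.D i.1 i.2.1 x) i.1 i.2.2.2 then 1 else 0 : ℕ) ≤ 4992 := by
  rw [Fintype.sum_prod_type]
  have h1 : ∀ k : Fin M, ∑ j : Fin 16 × (V × Fin NN), (if PK (ρ x) k ∧ j.2.1 = rep W k j.1 x ∧
      PN (W.D k j.1 x) k j.2.2 then 1 else 0 : ℕ) ≤ 64 * (if PK (ρ x) k then 1 else 0) := by
    intro k
    by_cases hk : PK (ρ x) k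
    · rw [if_pos hk, Fintype.sum_prod_type]
      have h2 : ∀ m : Fin 16, ∑ j : V × Fin NN, (if PK (ρ x) k ∧ j.1 = rep W k m x ∧
          PN (W.D k m x) k j.2 then 1 else 0 : ℕ) ≤ 4 := by
        intro m
        rw [Fintype.sum_prod_type]
        have h3 : ∀ c : V, ∑ n : Fin NN, (if PK (ρ x) k ∧ c = rep W k m x ∧
            PN (W.D k m x) k n then 1 else 0 : ℕ) ≤ if c = rep W k m x then 4 else 0 := by
          intro c
          by_cases hc : c = rep W k m x
          · rw [if_pos hc]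
            refine le_trans (Finset.sum_le_sum fun n _ => ?_) (card_PN (W.D k m x) k NN)
            by_cases hn : PN (W.D k m x) k n
            · rw [if_pos hn, if_pos ⟨hk, hc, hn⟩]
            · rw [if_neg hn, if_neg (fun h => hn h.2.2)]
          · rw [if_neg hc]
            refine le_of_eq (Finset.sum_eq_zero fun n _ => if_neg fun h => hc h.2.1)
        refine le_trans (Finset.sum_le_sum fun c _ => h3 c) ?_
        rw [Finset.sum_ite_eq' Finset.univ (rep W k m x) (fun _ => 4)]
        simp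
      refine le_trans (Finset.sum_le_sum fun m _ => h2 m) ?_
      simp
    · rw [if_neg hk]
      refine le_of_eq (Finset.sum_eq_zero fun n _ => if_neg fun h => hk h.1)
  refine le_trans (Finset.sum_le_sum fun k _ => h1 k) ?_
  rw [← Finset.mul_sum]
  have := card_PK (ρ x) M
  omega

/-- the family of bumps -/
noncomputable def TT (W : LWorld V) (ρ : V → ℝ) (M NN : ℕ) (i : Ix V M NN) (x : V) : ℝ :=
  T W ρ i.1 i.2.1 i.2.2.1 i.2.2.2 x

open Classical in
/-- indicator of activity -/
noncomputable def ac (W : LWorld V) (ρ : V → ℝ) (M NN : ℕ) (i : Ix V M NN) (x : V) : ℝ :=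
  ((if PK (ρ x) i.1 ∧ i.2.2.1 = rep W i.1 i.2.1 x ∧
      PN (W.D i.1 i.2.1 x) i.1 i.2.2.2 then 1 else 0 : ℕ) : ℝ)

theorem ac_nonneg (ρ : V → ℝ) (M NN : ℕ) (i : Ix V M NN) (x : V) : 0 ≤ ac W ρ M NN i x := by
  unfold ac
  positivity

theorem ac_sum (ρ : V → ℝ) (M NN : ℕ) (x : V) : ∑ i : Ix V M NN, ac W ρ M NN i x ≤ 4992 := by
  unfold ac
  rw [← Nat.cast_sum]
  exact_mod_cast count (W := W) ρ M NN x

theorem ac_eq_one {ρ : V → ℝ} {M NN : ℕ} {i : Ix V M NN} {x : V} (h : TT W ρ M NN i x ≠ 0) :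
    ac W ρ M NN i x = 1 := by
  classical
  have h1 := act_of_pos h
  unfold ac
  rw [if_pos h1]
  norm_num

theorem edge_sum {ρ : V → ℝ} (hρ : W.Scale ρ) (M NN : ℕ) {x y : V} (hadj : W.G.Adj x y) :
    ∑ i : Ix V M NN, |TT W ρ M NN i x - TT W ρ M NN i y| ≤ Cf := by
  have h1 : ∀ i : Ix V M NN, |TT W ρ M NN i x - TT W ρ M NN i y| ≤
      ac W ρ M NN i x + ac W ρ M NN i y := by
    intro i
    by_cases hx : TT W ρ M NN i x = 0
    · by_cases hy : TT W ρ M NN i y = 0
      · rw [hx, hy, sub_zero, abs_zero]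
        have := ac_nonneg (W := W) ρ M NN i x
        have := ac_nonneg (W := W) ρ M NN i y
        linarith
      · have h2 := ac_eq_one hy
        have h3 := ac_nonneg (W := W) ρ M NN i x
        have h4 : |TT W ρ M NN i x - TT W ρ M NN i y| ≤ 1 := T_lip hρ hadj
        linarith
    · have h2 := ac_eq_one hx
      have h3 := ac_nonneg (W := W) ρ M NN i y
      have h4 : |TT W ρ M NN i x - TT W ρ M NN i y| ≤ 1 := T_lip hρ hadj
      linarith
  refine le_trans (Finset.sum_le_sum fun i _ => h1 i) ?_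
  rw [Finset.sum_add_distrib]
  have h2 := ac_sum (W := W) ρ M NN x
  have h3 := ac_sum (W := W) ρ M NN y
  unfold Cf
  norm_num
  linarith

theorem abs_sum_le {ρ : V → ℝ} (hρ : W.Scale ρ) (M NN : ℕ) (x : V) :
    ∑ i : Ix V M NN, |TT W ρ M NN i x| ≤ ρ x := by
  have h0 := hρ.nonneg x
  have h1 : ∀ i : Ix V M NN, |TT W ρ M NN i x| ≤ ac W ρ M NN i x * (dl / 2 * ρ x) := by
    intro i
    by_cases hx : TT W ρ M NN i x = 0
    · rw [hx, abs_zero]
      refine mul_nonneg (ac_nonneg _ _ _ _ _) (mul_nonneg ?_ h0)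
      unfold dl
      positivity
    · have h5 : 0 ≤ TT W ρ M NN i x := T_nonneg _ _ _ _ _ _
      rw [ac_eq_one hx, one_mul, abs_of_nonneg h5]
      have h2 := (act_of_pos hx).1.1
      rw [th_cast] at h2
      have h3 : TT W ρ M NN i x ≤ max 0 (tent W i.1 i.2.1 i.2.2.2 x) := by
        unfold TT T
        split_ifs
        · exact core_le_tent _ _ _ _ _
        · exact le_max_left _ _
      refine le_trans h3 (max_le (mul_nonneg (by unfold dl; positivity) h0) ?_)
      unfold tent
      have h4 := abs_nonneg ((W.D i.1 i.2.1 x : ℝ) - (i.2.2.2 : ℕ) * 2 ^ (i.1 : ℕ))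
      linarith
  refine le_trans (Finset.sum_le_sum fun i _ => h1 i) ?_
  rw [← Finset.sum_mul]
  have h2 := ac_sum (W := W) ρ M NN x
  have h3 : 0 ≤ dl / 2 * ρ x := mul_nonneg (by unfold dl; positivity) h0
  refine le_trans (mul_le_mul_of_nonneg_right h2 h3) ?_
  unfold dl
  norm_num
  linarith

/-! ### Target pairs -/

omit [Fintype V] in
/-- one bump differs -/
theorem differ {ρ : V → ℝ} {k m : ℕ} {z y : V} (hmid : W.mid k m z)
    (hl : inList (ρ z) k) {δ : ℝ} (hδ : 0 ≤ δ)
    (h : ¬ (W.Bg k m).Reachable z y ∨ δ ≤ (W.D k m y : ℝ) - (W.D k m z : ℝ)) :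
    min (2 ^ k) δ ≤ |T W ρ k m (rep W k m z) (W.D k m z / 2 ^ k) z -
      T W ρ k m (rep W k m z) (W.D k m z / 2 ^ k) y| := by
  set n := W.D k m z / 2 ^ k with hn
  have hpk : (0 : ℝ) < 2 ^ k := by positivity
  have hn1 : (n : ℝ) * 2 ^ k ≤ W.D k m z := by
    have : n * 2 ^ k ≤ W.D k m z := Nat.div_mul_le_self _ _
    exact_mod_cast this
  have hn2 : (W.D k m z : ℝ) < n * 2 ^ k + 2 ^ k := by
    have h1 := Nat.lt_mul_div_succ (W.D k m z) (show 0 < 2 ^ k by positivity)
    have h2 : W.D k m z < n * 2 ^ k + 2 ^ k := by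
      rw [hn]
      calc W.D k m z < 2 ^ k * (W.D k m z / 2 ^ k + 1) := h1
        _ = _ := by ring
    exact_mod_cast h2
  have hm1 : (4 : ℝ) * 2 ^ k ≤ W.pos k m z := by exact_mod_cast hmid.1
  have hm2 : (W.pos k m z : ℝ) ≤ 12 * 2 ^ k := by exact_mod_cast hmid.2
  have hl1 := hl.1
  have hl2 := hl.2
  have hz : 2 * 2 ^ k - ((W.D k m z : ℝ) - n * 2 ^ k) ≤ T W ρ k m (rep W k m z) n z := by
    unfold T
    rw [if_pos rfl]
    unfold core tent
    rw [abs_of_nonneg (by linarith : (0 : ℝ) ≤ (W.D k m z : ℝ) - n * 2 ^ k)]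
    rw [th_cast] at *
    refine le_max_of_le_right (le_min (le_min ?_ ?_) (le_min le_rfl (le_min ?_ ?_))) <;> linarith
  have hy : T W ρ k m (rep W k m z) n y ≤
      max 0 (2 * 2 ^ k - ((W.D k m z : ℝ) - n * 2 ^ k) - δ) := by
    unfold T
    split_ifs with hr
    · have hr' := reach_of_rep W hr
      rcases h with h | h
      · exact absurd hr'.symm h
      · refine le_trans (core_le_tent _ _ _ _ _) (max_le_max le_rfl ?_)
        unfold tent
        have h1 := le_abs_self ((W.D k m y : ℝ) - n * 2 ^ k)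
        linarith
    · exact le_max_left _ _
  refine le_trans ?_ (le_abs_self _)
  rcases le_total 0 (2 * 2 ^ k - ((W.D k m z : ℝ) - n * 2 ^ k) - δ) with h5 | h5
  · rw [max_eq_right h5] at hy
    have := min_le_right ((2 : ℝ) ^ k) δ
    linarith
  · rw [max_eq_left h5] at hy
    have := min_le_left ((2 : ℝ) ^ k) δ
    linarith

theorem differ_T {ρ : V → ℝ} {k : ℕ} {z y : V} (hz : z ∈ W.N) (hy : y ∈ W.N)
    (hi : W.idx z ≤ W.idx y) (hl : inList (ρ z) k) (hd : 8 * (th k : ℝ) ≤ W.d z y) :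
    ∃ m, m < 16 ∧ 2 ^ k ≤ |T W ρ k m (rep W k m z) (W.D k m z / 2 ^ k) z -
      T W ρ k m (rep W k m z) (W.D k m z / 2 ^ k) y| := by
  obtain ⟨m, hm, hmid⟩ := H119.exists_mid W k z
  refine ⟨m, hm, ?_⟩
  have hpk : (0 : ℝ) < 2 ^ k := by positivity
  have h1 : ¬ (W.Bg k m).Reachable z y ∨ (2 : ℝ) ^ k ≤ (W.D k m y : ℝ) - (W.D k m z : ℝ) := by
    by_cases hr : (W.Bg k m).Reachable z y
    · right
      have h2 := H119.D_T W k m hz hy hr hi
      have h3 := (H119.bi_of_reach W k m hr).2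
      have h4 : W.d z y ≤ ((W.Bg k m).dist z y : ℝ) := by
        unfold LWorld.d
        exact_mod_cast h3
      have h5 : (W.D k m z : ℝ) + ((W.Bg k m).dist z y : ℝ) ≤ W.D k m y + 2 * (th k : ℝ) := by
        exact_mod_cast h2
      rw [th_cast] at h5 hd
      linarith
    · exact Or.inl hr
  have h2 := differ hmid hl hpk.le h1
  rwa [min_self] at h2

theorem exists_th {r : ℝ} (h : 16 ≤ r) : ∃ k : ℕ, (th k : ℝ) ≤ r ∧ r < 2 * th k := by
  obtain ⟨k, h1, h2⟩ := exists_nat_pow_near (x := r / 16) (y := (2 : ℝ)) (by linarith) (by norm_num)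
  refine ⟨k, ?_, ?_⟩
  · rw [th_cast]
    linarith
  · rw [th_cast]
    rw [pow_succ] at h2
    linarith

theorem exists_differ {ρ : V → ℝ} {z y : V} (ht : W.tgt ρ z y) :
    ∃ k m, m < 16 ∧ (th k : ℝ) ≤ ρ z ∧ 1 / 2 ^ 32 * W.d z y ≤
      |T W ρ k m (rep W k m z) (W.D k m z / 2 ^ k) z -
      T W ρ k m (rep W k m z) (W.D k m z / 2 ^ k) y| := by
  obtain ⟨hz, hy, -, hi, hr0, -, hdρ, hcase⟩ := ht
  unfold r0 at hr0
  have hρ0 : 0 < ρ z := lt_of_lt_of_le (by positivity) (le_trans hr0 hdρ)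
  by_cases hA : kap * ρ z < 2 * W.d z y
  · obtain ⟨k, h1, h2⟩ := exists_th (r := dl / 2 * ρ z) (by
      unfold dl
      norm_num at hr0 ⊢
      linarith)
    have hl : inList (ρ z) k := by
      constructor
      · unfold d1
        unfold dl at h2
        norm_num at h2 ⊢
        linarith
      · unfold dl at h1 ⊢
        norm_num at h1 ⊢
        linarith
    obtain ⟨m, hm, h3⟩ := differ_T (ρ := ρ) hz hy hi hl (by
      unfold kap at hA
      unfold dl at h1
      norm_num at h1 hA ⊢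
      linarith)
    refine ⟨k, m, hm, ?_, le_trans ?_ h3⟩
    · unfold dl at h1
      norm_num at h1 ⊢
      linarith
    · rw [th_cast] at h2
      unfold dl at h2
      norm_num at h2 ⊢
      linarith
  · rcases hcase with h | ⟨k, m, hm, hl, hs⟩
    · exact absurd h hA
    · have hA' := not_lt.1 hA
      by_cases hB : 16 * (th k : ℝ) < W.d z y
      · obtain ⟨k', h1, h2⟩ := exists_th (r := W.d z y / 8) (by
          norm_num at hr0 ⊢
          linarith)
        have hl' : inList (ρ z) k' := by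
          constructor
          · have := hl.1
            linarith
          · unfold kap at hA'
            unfold dl
            norm_num at hA' h1 ⊢
            linarith
        obtain ⟨m', hm', h3⟩ := differ_T (ρ := ρ) hz hy hi hl' (by linarith)
        refine ⟨k', m', hm', ?_, le_trans ?_ h3⟩
        · have h4 := hl'.2
          unfold dl at h4
          norm_num at h4 ⊢
          linarith
        · rw [th_cast] at h2
          norm_num at h2 hr0 ⊢
          linarith
      · have hB' := not_lt.1 hB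
        have hd0 : 0 ≤ W.d z y := by
          unfold LWorld.d
          positivity
        have h3 := differ (ρ := ρ) hs.1 hl (δ := cp * W.d z y)
          (mul_nonneg (by unfold cp; positivity) hd0) hs.2
        refine ⟨k, m, hm, ?_, le_trans ?_ h3⟩
        · have h4 := hl.2
          unfold dl at h4
          norm_num at h4 ⊢
          linarith
        · rw [th_cast] at hB'
          refine le_min ?_ ?_
          · norm_num at hB' ⊢
            linarith
          · unfold cp
            norm_num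
            linarith

theorem le_sum_fin (g : ℕ → ℕ) {N k : ℕ} (hk : k < N) : g k ≤ ∑ i : Fin N, g i := by
  have h := Finset.single_le_sum (s := Finset.univ) (f := fun i : Fin N => g i)
    (fun _ _ => Nat.zero_le _) (Finset.mem_univ (⟨k, hk⟩ : Fin N))
  exact h

theorem le_sum3 (f : ℕ → ℕ → V → ℕ) {M N k m : ℕ} (hk : k < M) (hm : m < N) (z : V) :
    f k m z ≤ ∑ k : Fin M, ∑ m : Fin N, ∑ x, f k m x := by
  have h2 : f k m z ≤ ∑ x, f k m x :=
    Finset.single_le_sum (f := fun x => f k m x) (fun _ _ => Nat.zero_le _) (Finset.mem_univ z)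
  have h3 : ∑ x, f k m x ≤ ∑ m : Fin N, ∑ x, f k m x := le_sum_fin (fun m => ∑ x, f k m x) hm
  have h4 : ∑ m : Fin N, ∑ x, f k m x ≤ ∑ k : Fin M, ∑ m : Fin N, ∑ x, f k m x :=
    le_sum_fin (fun k => ∑ m : Fin N, ∑ x, f k m x) hk
  exact h2.trans (h3.trans h4)

/-- **Row r6, r7.** -/
theorem bumps {ρ : V → ℝ} (h : W.Scale ρ) : ∃ (ι : Type) (_ : Fintype ι) (T : ι → V → ℝ),
    (∀ x y, W.G.Adj x y → ∑ i, |T i x - T i y| ≤ Cf) ∧ (∀ x, ∑ i, |T i x| ≤ ρ x) ∧
    ∀ z y, W.tgt ρ z y → ∃ i, 1 / 2 ^ 32 * W.d z y ≤ |T i z - T i y| := by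
  obtain ⟨M, hM⟩ := pow_unbounded_of_one_lt (∑ x, ρ x) (by norm_num : (1 : ℝ) < 2)
  obtain ⟨NN, hNN⟩ : ∃ NN : ℕ, ∀ k m, k < M → m < 16 → ∀ z, W.D k m z < NN :=
    ⟨(∑ k : Fin M, ∑ m : Fin 16, ∑ x, W.D k m x) + 1, fun k m hk hm z =>
      Nat.lt_succ_of_le (le_sum3 (fun k m x => W.D k m x) hk hm z)⟩
  refine ⟨Ix V M NN, inferInstance, TT W ρ M NN, fun x y hadj => edge_sum h M NN hadj,
    abs_sum_le h M NN, fun z y ht => ?_⟩
  obtain ⟨k, m, hm, hk, hd⟩ := exists_differ ht
  have hkM : k < M := by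
    have h1 : ρ z ≤ ∑ x, ρ x := Finset.single_le_sum (fun x _ => h.nonneg x) (Finset.mem_univ z)
    rw [th_cast] at hk
    have h2 : (2 : ℝ) ^ k < 2 ^ M := by
      have : (0 : ℝ) < 2 ^ k := by positivity
      linarith
    exact (pow_lt_pow_iff_right₀ (by norm_num)).1 h2
  have hn : W.D k m z / 2 ^ k < NN := lt_of_le_of_lt (Nat.div_le_self _ _) (hNN k m hkM hm z)
  refine ⟨((⟨k, hkM⟩, (⟨m, hm⟩, (rep W k m z, ⟨W.D k m z / 2 ^ k, hn⟩))) : Ix V M NN), ?_⟩
  unfold TT
  exact hd

end Vale.Agent.P235.STO.H558
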